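import Vale.Agent.P181.H463.Done

set_option autoImplicit false

open Vale.Agent.P181 Vale.Agent.P181.H280

namespace Vale.Agent.Results.P181.AlmostAllShapes

/-- **Foulkes' inequality for almost all partitions, for all `b ≥ a + a ^ ε`.**

Let `ε > 0`. For all sufficiently large `a` and all integers `b ≥ a + a ^ ε`, all but at most a
proportion `a ^ (ε - 1)` of the partitions `λ` of `a b` with at most `a` parts satisfy Foulkes'
inequality: the multiplicity of the Schur module `S_λ(ℂ^a)` in `Sym^a(Sym^b ℂ^a)` is at most its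
multiplicity in `Sym^b(Sym^a ℂ^a)`. -/
theorem result (ε : ℝ) (hε : 0 < ε) :
    ∀ᶠ a : ℕ in Filter.atTop, ∀ b : ℕ, (a : ℝ) + (a : ℝ) ^ ε ≤ b →
      ({lam : Fin a → ℕ | Antitone lam ∧ ∑ i, lam i = a * b ∧
          ¬ plethMult a b a lam ≤ plethMult b a a lam}.ncard : ℝ) ≤
        (a : ℝ) ^ (ε - 1) *
          ({lam : Fin a → ℕ | Antitone lam ∧ ∑ i, lam i = a * b}.ncard : ℝ) :=
  Vale.Agent.P181.H463.almost_all ε hε

end Vale.Agent.Results.P181.AlmostAllShapes
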