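import Vale.Agent.P181.T7.Done
import Vale.Agent.P181.T7.Cond
import Vale.Agent.P181.H12.Beta
import Vale.Agent.P181.H310.T54
import Vale.Agent.P181.H412.Nat10
import Vale.Agent.P181.H503.NatAll
import Vale.Agent.P181.H530.Inj
import Vale.Agent.P181.H59.Fin10
import Vale.Agent.P181.H310.WReal

set_option autoImplicit false

universe u

open Vale.Agent.P181 Vale.Agent.P181.H280

namespace Vale.Agent.Results.P181.FoulkesFiveQuarters

/-- **Foulkes' conjecture for all pairs `(a, b)` with `b ≥ C a ^ (5 / 4 + ε)`.**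

For every `ε > 0` there is a constant `C` such that for all `a` and `b`:

* if `b ≥ C a ^ (5 / 4 + ε)` then for every finite-dimensional complex vector space `V` there is an
  injective linear map `Sym^a(Sym^b V) → Sym^b(Sym^a V)` commuting with the maps induced by all
  linear maps `V → V`, and all the multiplicity inequalities hold;
* if `b ≥ C a ^ (1 + ε)` then the multiplicity of `S_λ(ℂ^n)` in `Sym^a(Sym^b ℂ^n)` is at most its
  multiplicity in `Sym^b(Sym^a ℂ^n)` for every `n` and every `λ` such that, for some `m`,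
  `∏_{i = 2}^{m + 1} min (λ_i, a ^ 2) ≥ C a ^ (1 + m (1 + ε))`, and for every `λ` with
  `λ_2 + λ_3 + ⋯ + λ_n ≥ C a ^ (2 + ε)`;
* if `a ≥ C` and `b ≥ a` then this inequality holds for every `n` and every `λ` with at least
  `b ^ 2 a ^ ε / (b - a)` cells in the first `b` columns, and for every `λ` with all
  `λ_i ≤ (b - a) a ^ (1 - ε)`;
* for all `a` and `b` (no constant) this inequality holds for every `n`, `λ` and `k` with
  `(λ_{k+3} + λ_{k+4} + ⋯) + (k + 3) 2 ^ k a ∏_{j = 1}^{k} max (1, λ_{j+2} / a) ^ (1 / (j (j + 1)))`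
  at most `b`. -/
theorem result (ε : ℝ) (hε : 0 < ε) :
    ∃ C : ℝ, ∀ a b : ℕ,
      (C * (a : ℝ) ^ (5 / 4 + ε) ≤ b → H530.FoulkesInjection.{u} a b ∧
        ∀ (n : ℕ) (lam : Fin n → ℕ), plethMult a b n lam ≤ plethMult b a n lam) ∧
      (C * (a : ℝ) ^ (1 + ε) ≤ b → ∀ (n : ℕ) (lam : Fin n → ℕ),
        ((∃ m : ℕ, C * (a : ℝ) ^ (1 + m * (1 + ε)) ≤
          ∏ i ∈ Finset.Ico 1 (m + 1),
            min ((if h : i < n then lam ⟨i, h⟩ else 0 : ℕ) : ℝ) ((a : ℝ) ^ 2)) ∨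
          C * (a : ℝ) ^ (2 + ε) ≤ ((∑ i : Fin n, if 1 ≤ (i : ℕ) then lam i else 0 : ℕ) : ℝ)) →
        plethMult a b n lam ≤ plethMult b a n lam) ∧
      (C ≤ a → a ≤ b → ∀ (n : ℕ) (lam : Fin n → ℕ),
        ((b : ℝ) ^ 2 * (a : ℝ) ^ ε ≤ ((b : ℝ) - a) * ∑ i, ((min b (lam i) : ℕ) : ℝ) ∨
          ∀ i, (lam i : ℝ) ≤ ((b : ℝ) - a) * (a : ℝ) ^ (1 - ε)) →
        plethMult a b n lam ≤ plethMult b a n lam) ∧
      (∀ (n k : ℕ) (lam : Fin n → ℕ),
        ((∑ i : Fin n, if k + 2 ≤ (i : ℕ) then lam i else 0 : ℕ) : ℝ) + (k + 3) * 2 ^ k * a *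
          ∏ j ∈ Finset.Ico 1 (k + 1),
            (max 1 (((if h : j + 1 < n then lam ⟨j + 1, h⟩ else 0 : ℕ) : ℝ) / a)) ^
              (1 / ((j : ℝ) * (j + 1))) ≤ b →
        plethMult a b n lam ≤ plethMult b a n lam) := by
  obtain ⟨C₁, hC₁, h1⟩ := H412.const_of_eventually' (x := 5 / 4 + ε) (by linarith)
    (fun _ _ _ => True) (fun _ _ _ _ _ => trivial) (by
      filter_upwards [H310.t54 ε hε] with a ha b hb lam hlam hsum _
      exact ha b hb lam hlam hsum)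
  obtain ⟨C₂, hC₂, h2⟩ := H503.nat_all ε hε
  obtain ⟨a₀, h3⟩ := H59.fin10 ε hε
  obtain ⟨C₃, hC₃, h5⟩ := T7.const_of_eventually (j := 1) hε (by linarith : (0 : ℝ) ≤ 1 + ε)
    (H12.first_row T7.f_done H463.big_stmt ε hε)
  have hle : ∀ {x y z : ℝ}, x ≤ y → 0 ≤ z → ∀ {w : ℝ}, y * z ≤ w → x * z ≤ w :=
    fun hxy hz _ hw => le_trans (mul_le_mul_of_nonneg_right hxy hz) hw
  obtain ⟨C, hC0, hC1, hC2, hC3⟩ : ∃ C : ℝ, (a₀ : ℝ) ≤ C ∧ C₁ ≤ C ∧ C₂ ≤ C ∧ C₃ ≤ C :=
    ⟨max (a₀ : ℝ) (max C₁ (max C₂ C₃)), le_max_left _ _,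
      (le_max_left _ _).trans (le_max_right _ _),
      (le_max_left _ _).trans ((le_max_right _ _).trans (le_max_right _ _)),
      (le_max_right _ _).trans ((le_max_right _ _).trans (le_max_right _ _))⟩
  refine ⟨C, fun a b => ⟨fun hb => ?_, fun hb n lam hlam => ?_,
    fun ha hab n lam hlam => ?_, fun n k lam hk => H310.WG.w_all k lam hk⟩⟩
  · have h4 : ∀ (n : ℕ) (lam : Fin n → ℕ), plethMult a b n lam ≤ plethMult b a n lam :=
      fun n lam => h1 a b n lam (hle hC1 (by positivity) hb) trivial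
    exact ⟨H530.foulkesInjection_of_mult h4, h4⟩
  · rcases hlam with ⟨m, hm⟩ | hD
    · exact h2 a b n lam (hle hC2 (by positivity) hb) ⟨m, hle hC2 (by positivity) hm⟩
    · exact h5 a b n lam (hle hC3 (by positivity) hb) (hle hC3 (by positivity) hD)
  · have h6 : (a₀ : ℝ) ≤ a := hC0.trans ha
    exact h3 a (by exact_mod_cast h6) b n lam hab hlam

end Vale.Agent.Results.P181.FoulkesFiveQuarters
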