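import Vale.Agent.P181.T7.Done
import Vale.Agent.P181.T7.Cond
import Vale.Agent.P181.H530.Inj
import Vale.Agent.P181.H12.Beta

set_option autoImplicit false

universe u

open Vale.Agent.P181 Vale.Agent.P181.H280

namespace Vale.Agent.Results.P181.FoulkesThreeHalves

/-- **Foulkes' conjecture for all pairs `(a, b)` with `b ≥ C a ^ (3 / 2 + ε)`.**

For every `ε > 0` there is a constant `C` such that for all `a` and `b`:

* if `b ≥ C a ^ (3 / 2 + ε)` then for every finite-dimensional complex vector space `V` there is an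
  injective linear map `Sym^a(Sym^b V) → Sym^b(Sym^a V)` commuting with the maps induced by all
  linear maps `V → V`, and all the multiplicity inequalities hold;
* if `b ≥ C a ^ (1 + ε)` then the multiplicity of `S_λ(ℂ^n)` in `Sym^a(Sym^b ℂ^n)` is at most its
  multiplicity in `Sym^b(Sym^a ℂ^n)` for every `n` and every `λ` with
  `λ_2 + λ_3 + ⋯ + λ_n ≥ C a ^ (2 + ε)` or `λ_3 + λ_4 + ⋯ + λ_n ≥ C a ^ (3 / 2 + ε)`. -/
theorem result (ε : ℝ) (hε : 0 < ε) :
    ∃ C : ℝ, ∀ a b : ℕ,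
      (C * (a : ℝ) ^ (3 / 2 + ε) ≤ b → H530.FoulkesInjection.{u} a b ∧
        ∀ (n : ℕ) (lam : Fin n → ℕ), plethMult a b n lam ≤ plethMult b a n lam) ∧
      (C * (a : ℝ) ^ (1 + ε) ≤ b → ∀ (n : ℕ) (lam : Fin n → ℕ),
        (C * (a : ℝ) ^ (2 + ε) ≤
            ((∑ i : Fin n, if 1 ≤ (i : ℕ) then lam i else 0 : ℕ) : ℝ) ∨
          C * (a : ℝ) ^ (3 / 2 + ε) ≤
            ((∑ i : Fin n, if 2 ≤ (i : ℕ) then lam i else 0 : ℕ) : ℝ)) →
        plethMult a b n lam ≤ plethMult b a n lam) := by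
  obtain ⟨C, hC⟩ := T7.three_halves ε hε
  obtain ⟨C₁, hC₁, h1⟩ := T7.const_of_eventually (j := 1) hε (by linarith : (0 : ℝ) ≤ 1 + ε)
    (H12.first_row T7.f_done H463.big_stmt ε hε)
  obtain ⟨C₂, hC₂, h2⟩ := T7.const_of_eventually (j := 2) hε (by linarith : (0 : ℝ) ≤ 1 + ε)
    (T7.f_done ε hε)
  have hle : ∀ {x y z : ℝ}, x ≤ y → 0 ≤ z → ∀ {w : ℝ}, y * z ≤ w → x * z ≤ w :=
    fun hxy hz _ hw => le_trans (mul_le_mul_of_nonneg_right hxy hz) hw
  refine ⟨max C (max C₁ C₂), fun a b => ⟨fun hb => ?_, fun hb n lam hD => ?_⟩⟩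
  · have h3 : ∀ (n : ℕ) (lam : Fin n → ℕ), plethMult a b n lam ≤ plethMult b a n lam :=
      hC a b (hle (le_max_left _ _) (by positivity) hb)
    exact ⟨H530.foulkesInjection_of_mult h3, h3⟩
  · have e1 : C₁ ≤ max C (max C₁ C₂) := (le_max_left _ _).trans (le_max_right _ _)
    have e2 : C₂ ≤ max C (max C₁ C₂) := (le_max_right _ _).trans (le_max_right _ _)
    rcases hD with hD | hD
    · exact h1 a b n lam (hle e1 (by positivity) hb) (hle e1 (by positivity) hD)
    · exact h2 a b n lam (hle e2 (by positivity) hb) (hle e2 (by positivity) hD)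

end Vale.Agent.Results.P181.FoulkesThreeHalves
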